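import Crest.Agent.X262.Noc95.Alg
import Crest.Agent.X262.Bl53.Defs
import Crest.Agent.X262.Bub96.NormB
import Crest.Agent.X262.Ends.Rees
import Crest.Agent.X262.Node22.Alg
import Crest.Agent.X262.Geo.Val
import Crest.Agent.X277.AN.G1Gaga

/-!
# Row 262, (BL) (helper95): no curve through the generic point of the centre

* `rel`     : affine form of the equations of the tuples;
* `vertex`  : a rational curve in a fibre through the generic point of `Z` is constant;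
* `nocStmt`.
-/

set_option autoImplicit false
set_option linter.style.haveILetI false

open scoped KaehlerDifferential

noncomputable section

namespace Crest.Agent.X262.Noc95

open Crest.Agent.X277 Crest.Agent.X277.Lef Crest.Agent.X277.AN.G1 Crest.Agent.X277.BD
open Crest.Agent.X277.BD.Cyc (Rf plV lnr_plV)
open Crest.Agent.X277.Res.Out (Coords)
open Crest.Agent.X262.Coh Crest.Agent.X262.Gwb Crest.Agent.X262.Bl53 Crest.Agent.X262.Bub96
open Crest.Agent.X262.Vb (Pnt MH pv)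
open MvPolynomial (aeval X)

theorem eqv {F : Type} {t t' : Tup F} (h : t = t') : ∃ e : t'.io ≃ t.io, ∀ i, t.y (e i) = t'.y i :=
  h ▸ ⟨Equiv.refl _, fun _ => rfl⟩

variable {K F σ J : Type} [Field K] [Algebra ℂ K] [Field F] [Algebra ℂ F] [Fintype J]
  [DecidableEq J] {T : J → Tup K} {jH jG : J} {eH : σ ≃ (T jH).io} {eG : Fin 3 ≃ (T jG).io}
  {y : σ → K} {t : Fin 2 → K} {i₀ : σ}

/-- evaluation in the affine chart -/
abbrev af {E : Type} [Field E] [Algebra ℂ E] (i₀ : σ) (v : σ → E) : MvPolynomial σ ℂ →ₐ[ℂ] E :=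
  aeval fun j => v j / v i₀

omit [Fintype J] in
theorem rel (hH : ∀ i, (T jH).y (eH i) = y i) (hy : y i₀ ≠ 0) {E : Type} [Field E] [Algebra ℂ E]
    {v : Pnt (fun j => (T j).io) E} (hv : OnT T v) (h0 : v jH (eH i₀) ≠ 0)
    {P Q : MvPolynomial σ ℂ} {a b : (T jG).io}
    (h : (T jG).y a * af i₀ y Q = (T jG).y b * af i₀ y P) :
    v jG a * af i₀ (fun i => v jH (eH i)) Q = v jG b * af i₀ (fun i => v jH (eH i)) P := by
  have h1 := hmg (τ := Vb.Vr fun j => (T j).io) (w := fun v => (Pi.single v.1 1 : J → ℕ))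
    (δ := Pi.single jH 1) (f := fun i => ⟨jH, eH i⟩) (fun _ => rfl) i₀
  obtain ⟨n₁, h2⟩ := h1 P
  obtain ⟨n₂, h3⟩ := h1 Q
  obtain ⟨P', h4, h5⟩ := h2 _ (le_max_left n₁ n₂)
  obtain ⟨Q', h6, h7⟩ := h3 _ (le_max_right n₁ n₂)
  have h8 := hv (X ⟨jG, a⟩ * Q' - X ⟨jG, b⟩ * P') _
    (((MvPolynomial.isWeightedHomogeneous_X ℂ _ _).mul h6).sub
      ((MvPolynomial.isWeightedHomogeneous_X ℂ _ _).mul h4)) (by
    rw [pv, map_sub, map_mul, map_mul, h5 K _ (hH i₀ ▸ hy), h7 K _ (hH i₀ ▸ hy)]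
    simp only [MvPolynomial.aeval_X, hH]
    rw [mul_left_comm, h, mul_left_comm, sub_self])
  rw [pv, map_sub, map_mul, map_mul, h5 E _ h0, h7 E _ h0, mul_left_comm, mul_left_comm (aeval _ _),
    sub_eq_zero, mul_right_inj' (pow_ne_zero _ h0)] at h8
  simpa only [MvPolynomial.aeval_X] using h8

/-- `v` is a generic point of the closure of `z` -/
def Gn {E : Type} [Field E] [Algebra ℂ E] (i₀ : σ) (z : σ → F) (v : σ → E) : Prop :=
  v i₀ ≠ 0 ∧ ∀ q, af i₀ v q = 0 ↔ aeval z q = 0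

omit [Fintype J] in
theorem vertex (hH : ∀ i, (T jH).y (eH i) = y i) (hG : ∀ a, (T jG).y (eG a) = ![1, t 0, t 1] a)
    (hy : y i₀ ≠ 0) {p : Plc K F} (hp : ∀ j, y j / y i₀ ∈ p.O) (ht : Coords p.O t)
    (hl : ∀ f ∈ p.O, ∃ P Q, p.π (af i₀ y Q) ≠ 0 ∧ f * af i₀ y Q = af i₀ y P)
    (hz : ∀ g : F, ∃ a ∈ p.O, ∃ c ∈ p.O, g = p.π a / p.π c)
    {k : Type} [Field k] [Algebra ℂ k] [IsAlgClosed k]
    (hr : ∀ (γ : F →ₐ[ℂ] RatFunc k) x, γ x ∈ (algebraMap k (RatFunc k)).range)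
    {S : Tr k J fun j => (T j).io} (hS : S.OK) (hon : ∀ u, OnT T (S.ev u)) {a : S.Vx}
    (h0 : S.vd a jG = 0) {u : Option k}
    (hu : Gn i₀ (fun j => p.π (y j / y i₀)) fun i => S.ev (a, u) jH (eH i)) : S.vd a jH = 0 := by
  haveI : CharZero k := charZero_of_injective_algebraMap (algebraMap ℂ k).injective
  let ι : Polynomial k →ₐ[ℂ] RatFunc k := IsScalarTower.toAlgHom ℂ _ _
  have hι : Function.Injective ι := IsFractionRing.injective _ (RatFunc k)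
  have hπ := fun q => (Plc.π_aeval hp q).2
  have hO := fun q => (Plc.π_aeval hp q).1
  replace hu' : ∀ q, af i₀ (fun i => S.ev (a, u) jH (eH i)) q = 0 ↔ p.π (af i₀ y q) = 0 :=
    fun q => hπ q ▸ hu.2 q
  let v : Pnt (fun j => (T j).io) (RatFunc k) := fun j i => ι (S.vg a j i)
  have h1 : OnT T v := fun q κ h h' => by
    have : aeval (fun x : Vb.Vr fun j => (T j).io => S.vg a x.1 x.2) q = 0 :=
      Polynomial.funext fun x => by
        rw [Polynomial.eval_zero, ← hon (a, some x) q κ h h', ← Polynomial.coe_aeval_eq_eval]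
        exact (MvPolynomial.comp_aeval_apply _ ((Polynomial.aeval x).restrictScalars ℂ) q).trans
          (by simp [pv, Tr.ev])
    rw [pv, ← MvPolynomial.comp_aeval_apply, this, map_zero]
  have h2 : v jH (eH i₀) ≠ 0 := (map_ne_zero_iff _ hι).2 fun e => hu.1 (by
    show hv _ (S.vg a jH (eH i₀)) u = 0
    rw [e, hv_zero])
  have h3 : ∀ b, v jG b = algebraMap k _ (S.ev (a, u) jG b) := fun b => by
    rw [ev_const hS h0]
    exact congrArg ι (Polynomial.eq_C_of_natDegree_le_zero (h0 ▸ hS.natDegree_le a jG b))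
  have h4 : ∀ q, af i₀ (fun i => v jH (eH i)) q = 0 → p.π (af i₀ y q) = 0 := fun q hq => by
    obtain ⟨n, h⟩ := hmg (w := (1 : σ → ℕ)) (δ := 1) (f := id) (fun _ => rfl) i₀ q
    obtain ⟨q', h5, h6⟩ := h n le_rfl
    rw [smul_eq_mul, mul_one] at h5
    have h7 := h6 _ (fun i => v jH (eH i)) h2
    simp only [id] at h7 h6
    rw [hq, mul_zero, ← MvPolynomial.comp_aeval_apply, map_eq_zero_iff _ hι] at h7
    have h8 := (hv_aeval h5 (fun i => hS.natDegree_le a jH (eH i)) u).2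
    rw [h7, hv_zero] at h8
    exact (hu' q).1 ((mul_eq_zero.1 ((h6 _ _ hu.1).symm.trans h8.symm)).resolve_left
      (pow_ne_zero _ hu.1))
  choose P Q hQ hP using fun l => hl _ (ht.van l).1
  have h5 : ∀ l, (T jG).y (eG l.succ) * af i₀ y (Q l) = (T jG).y (eG 0) * af i₀ y (P l) :=
    fun l => by
      rw [hG, hG, ← hP]
      fin_cases l <;> simp
  have h6 : ∀ l : Fin 2, S.ev (a, u) jG (eG l.succ) = 0 := fun l => by
    have h7 := rel hH hy (hon (a, u)) hu.1 (h5 l)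
    have h8 : p.π (t l) = 0 := by_contra fun e =>
      (ht.van l).2 ⟨Plc.ne_zero_of_ne e, (ht.van l).1, p.inv_mem e⟩
    rw [(hu' (P l)).2 (by rw [← hP, p.π_mul (ht.van l).1 (hO _), h8, zero_mul]), mul_zero] at h7
    exact (mul_eq_zero.1 h7).resolve_right fun e => hQ l ((hu' _).1 e)
  have h7 : v jG (eG 0) ≠ 0 := by
    rw [h3, map_ne_zero]
    obtain ⟨b, hb⟩ := hS.ev_ne (a, u) jG
    obtain ⟨b, rfl⟩ := eG.surjective b
    exact Fin.cases id (fun l h => (h (h6 l)).elim) b hb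
  have h8 : ∀ l, af i₀ (fun i => v jH (eH i)) (P l) = 0 := fun l => by
    have h9 := rel hH hy h1 h2 (h5 l)
    rw [h3, h6, map_zero, zero_mul] at h9
    exact (mul_eq_zero.1 h9.symm).resolve_left h7
  have h9 : ∀ q, p.π (af i₀ y q) = 0 → af i₀ (fun i => v jH (eH i)) q = 0 := fun q hq => by
    obtain ⟨r, hr, e⟩ := ht.gen _ ⟨hO q, fun e => by
      have := p.π_mul e.2.1 e.2.2
      rw [mul_inv_cancel₀ e.1, hq, zero_mul, p.π_one] at this
      exact one_ne_zero this⟩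
    choose R U hU hR using fun l => hl _ (hr l)
    have e1 := rel (jG := jG) (a := eG 0) (b := eG 0) hH hy h1 h2
      (Q := q * (Q 0 * Q 1 * U 0 * U 1)) (P := R 0 * P 0 * Q 1 * U 1 + R 1 * P 1 * Q 0 * U 0) (by
        simp only [map_mul, map_add, ← hP, ← hR]
        rw [e, Fin.sum_univ_two]
        ring)
    simp only [map_mul, map_add, h8, mul_zero, zero_mul, add_zero, mul_eq_zero, h7, false_or] at e1
    exact e1.resolve_right fun e => e.elim (fun e => e.elim (fun e => e.elim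
      (fun e => hQ 0 (h4 _ e)) fun e => hQ 1 (h4 _ e)) fun e => hU 0 (h4 _ e))
      fun e => hU 1 (h4 _ e)
  obtain ⟨γ, hγ⟩ := exists_hom (z := fun j => p.π (y j / y i₀))
    (w := fun j => v jH (eH j) / v jH (eH i₀)) (fun g => by
      obtain ⟨b, hb, c, hc, rfl⟩ := hz g
      obtain ⟨P₁, Q₁, h1, h2⟩ := hl b hb
      obtain ⟨P₂, Q₂, h3, h4⟩ := hl c hc
      refine ⟨P₁ * Q₂, P₂ * Q₁, ?_⟩
      rw [map_mul, map_mul, ← hπ, ← hπ, ← hπ, ← hπ, ← h2, ← h4, p.π_mul hb (hO _),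
        p.π_mul hc (hO _)]
      field_simp) fun q => hπ q ▸ ⟨h4 q, h9 q⟩
  refine zero_of_ne (hS.natDegree_le a jH (eH i₀)) fun x hx => ?_
  obtain ⟨i, hi⟩ := hS.ev_ne (a, x) jH
  obtain ⟨i, rfl⟩ := eH.surjective i
  obtain ⟨c, hc⟩ := hr γ (p.π (y i / y i₀))
  rw [hγ, eq_div_iff h2] at hc
  have : S.vg a jH (eH i) = Polynomial.C c * S.vg a jH (eH i₀) :=
    hι (hc.symm.trans (map_mul ι _ _).symm)
  refine hi ?_
  show hv _ (S.vg a jH (eH i)) x = 0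
  rw [this, hv_C_mul, hx, mul_zero]

/-- specialisation of a vertex -/
theorem spec {L : Type} [Field L] [Algebra ℂ L] [IsAlgClosed L] {z : σ → F}
    {S : Tr L J fun j => (T j).io} (hS : S.OK) (hon : ∀ u, OnT T (S.ev u)) (a : S.Vx) {u : Option L}
    (h0 : S.ev (a, u) jH (eH i₀) ≠ 0)
    (h : ∀ q, af i₀ (fun i => S.ev (a, u) jH (eH i)) q = 0 → aeval z q = 0) :
    ∃ (k : Type) (_ : Field k) (_ : Algebra ℂ k) (_ : IsAlgClosed k)
      (S' : Tr k J fun j => (T j).io) (x : S'.Pt), S'.OK ∧ S'.deg = S.vd a ∧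
      (∀ u, OnT T (S'.ev u)) ∧ Gn i₀ z fun i => S'.ev x jH (eH i) := by
  haveI := RingHom.ker_isPrime (aeval (R := ℂ) z)
  obtain ⟨W, h1, h2⟩ := Ends.exists_centre (af i₀ fun i => S.ev (a, u) jH (eH i)).toRingHom
    (RingHom.ker (aeval (R := ℂ) z)) h
  let V : RZ ℂ L := ⟨W, fun c => by simpa using h1 (MvPolynomial.C c)⟩
  let R : Rd L (Rf V) := rd V
  haveI : IsAlgClosed (Rf V) := R.isAlgClosed
  obtain ⟨A⟩ := exists_red R (d := S.vd a) (F := S.vg a)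
    ⟨hS.natDegree_le a, fun j x => hS.ev_ne (a, x) j⟩
  have h3 : ∀ x j i, A.T.ev (A.sp x) j i = (plV V).r (A.nrm x j * S.ev (a, x) j i) :=
    fun x j i => (A.ev_sp x j i).symm
  have hm : ∀ x j i, A.nrm x j * S.ev (a, x) j i ∈ V.1 := A.nrm_mem
  have h4 : ∀ j, S.ev (a, u) jH (eH j) / S.ev (a, u) jH (eH i₀) ∈ V.1 := fun j => by
    simpa using h1 (X j)
  have h5 : ∀ i, A.T.ev (A.sp u) jH (eH i) = A.T.ev (A.sp u) jH (eH i₀) *
      (plV V).r (S.ev (a, u) jH (eH i) / S.ev (a, u) jH (eH i₀)) := fun i => by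
    rw [h3, h3, ← Pl.r_mul (p := plV V) (hm u jH _) (h4 i), mul_assoc, mul_div_cancel₀ _ h0]
  have h6 : A.T.ev (A.sp u) jH (eH i₀) ≠ 0 := fun e => by
    obtain ⟨i, hi⟩ := A.ok.ev_ne (A.sp u) jH
    obtain ⟨i, rfl⟩ := eH.surjective i
    exact hi (by rw [h5, e, zero_mul])
  refine ⟨Rf V, inferInstance, inferInstance, this, A.T, A.sp u, A.ok, A.deg,
    fun x q κ h7 h8 => ?_, h6, fun q => ?_⟩
  · obtain ⟨x', h9⟩ := A.surj x
    rw [pv, show (fun v : Vb.Vr fun j => (T j).io => A.T.ev x v.1 v.2) = _ from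
      funext fun v => (h9.1 v.1 v.2).trans (h3 _ _ _),
      ← (Geo.r_aeval (lnr_plV V) (fun v : Vb.Vr fun j => (T j).io => hm x' v.1 v.2) q).2,
      Node22.mh_aeval h7, ← pv, hon (a, x') q κ h7 h8, mul_zero, Pl.r_zero]
  · rw [af, show (fun j => A.T.ev (A.sp u) jH (eH j) / A.T.ev (A.sp u) jH (eH i₀)) = _ from
      funext fun j => by rw [h5 j, mul_div_cancel_left₀ _ h6],
      ← (Geo.r_aeval (lnr_plV V) h4 q).2, Pl.r_eq_zero (h1 q)]
    exact h2 q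

theorem nocStmt : NocStmt := by
  rintro K _ _ U V h Z i t hi hl ht ⟨n, β, k, ω, hk, hω, h0⟩ m jH jG hH hG d dG dH Q μ ν
    ⟨L, _, _, _, α, S, x, -, hS, rfl, hon, hx, -⟩ hr
  obtain ⟨eH, hH⟩ : ∃ e : Fin (V.N + 1) ≃ _, ∀ i, (m.T jH).y (e i) = V.y i := eqv hH
  obtain ⟨eG, hG⟩ : ∃ e : Fin 3 ≃ _, ∀ i, (m.T jG).y (e i) = ![1, t 0, t 1] i := eqv hG
  obtain ⟨ζ⟩ : Nonempty Z.Pt := inferInstance
  obtain ⟨i₀, hζ⟩ := exists_pat (P := V) (i.map ζ)
  have h1 : ∀ j, V.y j / V.y i₀ ∈ i.p.O := fun j => i.mem_O (y_mem hζ j)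
  have h2 : ∀ f ∈ i.p.O, ∃ P Q, i.p.π (af i₀ V.y Q) ≠ 0 ∧ f * af i₀ V.y Q = af i₀ V.y P :=
    fun f hf => by
      obtain ⟨c, h2, h3, h4⟩ := hl ζ f hf
      obtain ⟨a₁, ha₁, c₁, hc₁, h5, h6⟩ := (mem_lp_iff hζ).1 h2
      obtain ⟨a₂, ha₂, c₂, hc₂, h7, h8⟩ := (mem_lp_iff hζ).1 h4
      obtain ⟨P, hP⟩ := exists_poly (mul_mem ha₂ hc₁)
      obtain ⟨Q, hQ⟩ := exists_poly (mul_mem ha₁ hc₂)
      have h9 : ∀ {c}, c ∈ V.A i₀ → ev c (i.map ζ) ≠ 0 → i.p.π c ≠ 0 := fun hc e =>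
        LP.ne_zero_of_ne (i.ev_map (A_le hζ hc) ▸ e)
      refine ⟨P, Q, ?_, by rw [af, hP, hQ, ← h6, ← h8]; ring⟩
      rw [af, hQ, ← h6, i.p.π_mul (mul_mem (i.mem_O h2) (i.mem_O (A_le hζ hc₁)))
        (i.mem_O (A_le hζ hc₂)), i.p.π_mul (i.mem_O h2) (i.mem_O (A_le hζ hc₁))]
      exact mul_ne_zero (mul_ne_zero h3 (h9 hc₁ h5)) (h9 hc₂ h7)
  have h3 : ∀ g : Z.F, ∃ a ∈ i.p.O, ∃ c ∈ i.p.O, g = i.p.π a / i.p.π c := fun g => by
    obtain ⟨a, ha, c, hc, -, rfl⟩ := frac_lp ζ g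
    obtain ⟨a', ha', rfl⟩ := hi.2 ζ a ha
    obtain ⟨c', hc', rfl⟩ := hi.2 ζ c hc
    exact ⟨a', i.mem_O ha', c', i.mem_O hc', rfl⟩
  let ρ := Mor.comp (Chn.mor h) μ
  have h4 : ∀ f, ρ.p.π f = μ.p.π f := fun _ => rfl
  have h5 : ∀ j, V.y j / V.y i₀ ∈ μ.p.O := fun j => by
    obtain ⟨q, hq⟩ := hr ⟨ζ, rfl⟩
    exact (ρ.mem_O (y_mem (hq ▸ hζ) j)).2
  obtain ⟨u, c, h6, h7⟩ := hx jH
  have h8 : ∀ j, S.ev x jH (eH j) = S.ev x jH (eH i₀) * α (μ.p.π (V.y j / V.y i₀)) := fun j => by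
    rw [h7, h7, mul_assoc, ← map_mul, ← μ.p.π_mul (h6 _) (h5 j), hH, hH]
    congr 3
    exact (by field_simp [V.y_ne i₀] : V.y j / u = V.y i₀ / u * (V.y j / V.y i₀))
  have h9 : S.ev x jH (eH i₀) ≠ 0 := fun e => by
    obtain ⟨j, hj⟩ := hS.ev_ne x jH
    obtain ⟨j, rfl⟩ := eH.surjective j
    exact hj (by rw [h8, e, zero_mul])
  have h10 : ∀ q, af i₀ (fun j => S.ev x jH (eH j)) q = 0 →
      aeval (fun j => i.p.π (V.y j / V.y i₀)) q = 0 := fun q hq => by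
    rw [af, show (fun j => S.ev x jH (eH j) / S.ev x jH (eH i₀)) = _ from
      funext fun j => by rw [h8 j, mul_div_cancel_left₀ _ h9], ← MvPolynomial.comp_aeval_apply,
      map_eq_zero, ← (Plc.π_aeval h5 q).2] at hq
    rw [← (Plc.π_aeval h1 q).2]
    by_contra e
    obtain ⟨ζ', e1, e2⟩ := (dense_ne Z.P e).inter_open_nonempty _
      ((isOpen_pat V i₀).preimage i.continuous) ⟨ζ, hζ⟩
    obtain ⟨q', hq'⟩ := hr ⟨ζ', rfl⟩
    have e3 := A_le e1 (MvPolynomial.aeval (gen V i₀) q).2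
    rw [aeval_gen] at e3
    refine e2 ?_
    rw [← i.ev_map e3, ← hq', ρ.ev_map (hq' ▸ e3), h4, hq]
    exact LP.v_zero _
  refine dH (deg_zero hS (fun v => v = S.ev x jH) (fun a u e => ?_) rfl)
  obtain ⟨k, _, _, _, S', x', hS', e1, hon', hx'⟩ :=
    spec (eH := eH) hS hon a (e ▸ h9) (e ▸ h10)
  rw [← e1]
  refine deg_zero hS' (fun v => Gn i₀ _ fun j => v (eH j)) (fun a' u' => vertex hH hG (V.y_ne i₀)
    h1 ht h2 h3 (rc_const Z.P β hk hω h0) hS' hon' ?_) hx'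
  exact Nat.le_zero.1 (dG ▸ (S'.vd_le_deg a' jG).trans (e1 ▸ S.vd_le_deg a jG))

end Crest.Agent.X262.Noc95
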