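import Crest.Agent.X262.Bub96.Tree
import Crest.Agent.X262.Rc72.Main

/-!
# Row 262, (BL) (helper95): trees, homogenisation, rational curves through a generic point

* `conn`, `deg_zero` : connectedness of trees;
* `hmg`, `hv_aeval`  : homogenisation, forms along a rational curve;
* `exists_hom`       : two generic points of the same variety;
* `rc_const`         : a field with a pluricanonical form lies in the constants of `k(X)`.
-/

set_option autoImplicit false
set_option linter.style.haveILetI false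

open scoped KaehlerDifferential

noncomputable section

namespace Crest.Agent.X262.Noc95

open Crest.Agent.X277.Lef Polynomial
open Crest.Agent.X262.Bub96 Crest.Agent.X262.Bub96.Tr

section tree

variable {k : Type} [Field k] {J : Type} {io : J → Type}

theorem conn (Φ : ((j : J) → io j → k) → Prop) : (T : Tr k J io) → T.OK →
    (∀ a u u', Φ (T.ev (a, u)) → Φ (T.ev (a, u'))) → ∀ x x', Φ (T.ev x) → Φ (T.ev x')
  | leaf _ _, _, h, x, x' => h () x.2 x'.2
  | glue T p S, hT, h, x, x' => by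
    have h1 := conn Φ T hT.1 fun a => h (Sum.inl a)
    have h2 := conn Φ S hT.2.1 fun a => h (Sum.inr a)
    have e : S.ev (S.root, none) = T.ev (T.root, some p) :=
      funext fun j => funext fun i => hT.2.2.2 j i
    rcases x with ⟨a | a, u⟩ <;> rcases x' with ⟨a' | a', u'⟩
    · exact h1 (a, u) (a', u')
    · exact fun hx => h2 _ (a', u') (e ▸ h1 (a, u) _ hx)
    · exact fun hx => h1 _ (a', u') (e ▸ h2 (a, u) _ hx)
    · exact h2 (a, u) (a', u')

theorem hv_const {f : k[X]} (h : f.natDegree ≤ 0) (u : Option k) : hv 0 f u = f.coeff 0 := by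
  rcases u with _ | u
  · rfl
  · rw [hv_some, eq_C_of_natDegree_le_zero h, eval_C, coeff_C_zero]

theorem ev_const {T : Tr k J io} (hT : T.OK) {a : T.Vx} {j : J} (h : T.vd a j = 0) (u : Option k)
    (i : io j) : T.ev (a, u) j i = (T.vg a j i).coeff 0 := by
  rw [ev, h]
  exact hv_const (h ▸ hT.natDegree_le a j i) u

theorem deg_zero {T : Tr k J io} (hT : T.OK) {j : J} (Φ : (io j → k) → Prop)
    (h : ∀ a u, Φ (T.ev (a, u) j) → T.vd a j = 0) {x : T.Pt} (hx : Φ (T.ev x j)) : T.deg j = 0 := by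
  have h1 := fun x' => conn (fun y => Φ (y j)) T hT (fun a u u' h1 => by
    have h2 : T.ev (a, u') j = T.ev (a, u) j :=
      funext fun i => by rw [ev_const hT (h a u h1), ev_const hT (h a u h1)]
    exact h2 ▸ h1) x x' hx
  rw [← sum_vd]
  exact Finset.sum_eq_zero fun a _ => h a none (h1 _)

theorem zero_of_ne [IsAlgClosed k] {f : k[X]} {e : ℕ} (h1 : f.natDegree ≤ e)
    (h : ∀ u, hv e f u ≠ 0) : e = 0 := by
  by_contra h0
  have h2 : f.natDegree = e := le_antisymm h1 (le_natDegree_of_ne_zero (h none))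
  obtain ⟨x, hx⟩ := IsAlgClosed.exists_root f
    (natDegree_pos_iff_degree_pos.1 (h2 ▸ Nat.pos_of_ne_zero h0)).ne'
  exact h (some x) hx

end tree

section hom

variable {σ : Type}

theorem hmg {τ M : Type} [AddCommMonoid M] {w : τ → M} {δ : M} {f : σ → τ} (hf : ∀ j, w (f j) = δ)
    (i : σ) (q : MvPolynomial σ ℂ) : ∃ n₀, ∀ n, n₀ ≤ n → ∃ q' : MvPolynomial τ ℂ,
    q'.IsWeightedHomogeneous w (n • δ) ∧ ∀ (E : Type) [Field E] [Algebra ℂ E] (v : τ → E),
      v (f i) ≠ 0 → MvPolynomial.aeval v q' =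
        v (f i) ^ n * MvPolynomial.aeval (fun j => v (f j) / v (f i)) q := by
  have hX := fun j => hf j ▸ MvPolynomial.isWeightedHomogeneous_X ℂ w (f j)
  induction q using MvPolynomial.induction_on with
  | C c =>
    refine ⟨0, fun n _ => ⟨MvPolynomial.C c * MvPolynomial.X (f i) ^ n,
      ((hX i).pow n).C_mul c, fun E _ _ v _ => ?_⟩⟩
    simp [mul_comm]
  | add p q hp hq =>
    obtain ⟨n₁, h1⟩ := hp
    obtain ⟨n₂, h2⟩ := hq
    refine ⟨max n₁ n₂, fun n hn => ?_⟩
    obtain ⟨p', h3, h4⟩ := h1 n (le_of_max_le_left hn)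
    obtain ⟨q', h5, h6⟩ := h2 n (le_of_max_le_right hn)
    exact ⟨p' + q', h3.add h5, fun E _ _ v hv => by rw [map_add, map_add, h4 E v hv, h6 E v hv,
      mul_add]⟩
  | mul_X p j hp =>
    obtain ⟨n₁, h1⟩ := hp
    refine ⟨n₁ + 1, fun n hn => ?_⟩
    obtain ⟨n, rfl⟩ : ∃ m, n = m + 1 := ⟨n - 1, by omega⟩
    obtain ⟨p', h3, h4⟩ := h1 n (by omega)
    refine ⟨p' * MvPolynomial.X (f j), succ_nsmul δ n ▸ h3.mul (hX j), fun E _ _ v hv => ?_⟩
    rw [map_mul, map_mul, h4 E v hv, MvPolynomial.aeval_X, MvPolynomial.aeval_X]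
    field_simp
    ring

variable {k : Type} [Field k] [Algebra ℂ k]

omit [Algebra ℂ k] in
theorem hv_pow {e : ℕ} {f : k[X]} (hf : f.natDegree ≤ e) (m : ℕ) (u : Option k) :
    hv (m * e) (f ^ m) u = hv e f u ^ m := by
  rcases u with _ | u
  · exact coeff_pow_of_natDegree_le hf
  · exact eval_pow _

theorem hv_aeval {q : MvPolynomial σ ℂ} {n e : ℕ} (hq : q.IsHomogeneous n) {F : σ → k[X]}
    (hF : ∀ i, (F i).natDegree ≤ e) (u : Option k) :
    (MvPolynomial.aeval F q).natDegree ≤ n * e ∧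
      hv (n * e) (MvPolynomial.aeval F q) u = MvPolynomial.aeval (fun i => hv e (F i) u) q := by
  induction hq using MvPolynomial.IsWeightedHomogeneous.induction_on with
  | zero => simp [hv_zero]
  | add p q _ _ hp hq =>
    rw [map_add, map_add, hv_add, hp.2, hq.2]
    exact ⟨(natDegree_add_le _ _).trans (max_le hp.1 hq.1), rfl⟩
  | monomial d r hd =>
    classical
    have key : ∀ s : Finset σ, (∏ i ∈ s, F i ^ d i).natDegree ≤ (∑ i ∈ s, d i) * e ∧
        hv ((∑ i ∈ s, d i) * e) (∏ i ∈ s, F i ^ d i) u = ∏ i ∈ s, hv e (F i) u ^ d i := fun s => by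
      induction s using Finset.induction_on with
      | empty => rcases u with _ | u <;> simp
      | insert a s ha ih =>
        have h1 := natDegree_pow_le_of_le (d a) (hF a)
        rw [Finset.sum_insert ha, Finset.prod_insert ha, Finset.prod_insert ha, add_mul,
          hv_mul h1 ih.1, ih.2, hv_pow (hF a)]
        exact ⟨natDegree_mul_le.trans (add_le_add h1 ih.1), rfl⟩
    have h1 : n = ∑ i ∈ d.support, d i := by simp [← hd, Finsupp.weight_apply, Finsupp.sum]
    rw [MvPolynomial.aeval_monomial, MvPolynomial.aeval_monomial, Polynomial.algebraMap_apply,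
      hv_C_mul, h1]
    exact ⟨(natDegree_C_mul_le _ _).trans (key _).1, congrArg _ (key _).2⟩

theorem exists_hom {F E : Type} [Field F] [Algebra ℂ F] [Field E] [Algebra ℂ E] {z : σ → F}
    {w : σ → E} (hz : ∀ f : F, ∃ p q : MvPolynomial σ ℂ,
      f = MvPolynomial.aeval z p / MvPolynomial.aeval z q)
    (h : ∀ q : MvPolynomial σ ℂ, MvPolynomial.aeval w q = 0 ↔ MvPolynomial.aeval z q = 0) :
    ∃ γ : F →ₐ[ℂ] E, ∀ j, γ (z j) = w j := by
  let B := (MvPolynomial.aeval (R := ℂ) z).range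
  let g : B →ₐ[ℂ] E := AlgHom.liftOfSurjective (MvPolynomial.aeval z).rangeRestrict
    (AlgHom.rangeRestrict_surjective _) (MvPolynomial.aeval w) fun q hq =>
      (h q).2 (congrArg Subtype.val hq)
  have hg : ∀ q, g ((MvPolynomial.aeval z).rangeRestrict q) = MvPolynomial.aeval w q :=
    fun q => AlgHom.liftOfSurjective_apply ..
  have hi : Function.Injective g := (injective_iff_map_eq_zero g).2 fun b hb => by
    obtain ⟨q, rfl⟩ := AlgHom.rangeRestrict_surjective _ b
    exact Subtype.ext ((h q).1 (hg q ▸ hb))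
  haveI : IsFractionRing B F := IsFractionRing.of_field B F fun f => by
    obtain ⟨p, q, h⟩ := hz f
    exact ⟨⟨_, p, rfl⟩, ⟨_, q, rfl⟩, h⟩
  refine ⟨IsFractionRing.liftAlgHom hi, fun j => ?_⟩
  rw [← MvPolynomial.aeval_X (R := ℂ) w j, ← hg, ← MvPolynomial.aeval_X (R := ℂ) z j]
  exact IsFractionRing.lift_algebraMap (K := F) hi ⟨_, _, rfl⟩

theorem rc_const {F : Type} [Field F] [Algebra ℂ F] (P : PModel ℂ F) {n : ℕ}
    (b : Module.Basis (Fin n) F Ω[F⁄ℂ]) {m : ℕ} (hm : 0 < m) {ω : F} (hω : ω ∈ P.H b m 0)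
    (h0 : ω ≠ 0) (γ : F →ₐ[ℂ] RatFunc k) (x : F) : γ x ∈ (algebraMap k (RatFunc k)).range := by
  classical
  let ι : k[X] →ₐ[ℂ] RatFunc k := IsScalarTower.toAlgHom ℂ k[X] (RatFunc k)
  have hι : Function.Injective ι := IsFractionRing.injective k[X] (RatFunc k)
  obtain ⟨D, hD⟩ := IsLocalization.exist_integer_multiples_of_finite (nonZeroDivisors k[X])
    fun j => γ (P.y j)
  choose f hf using hD
  replace hf : ∀ j, ι (f j) = ι D * γ (P.y j) := fun j => (hf j).trans (Algebra.smul_def _ _)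
  have hD : ι D ≠ 0 := (map_ne_zero_iff _ hι).2 (nonZeroDivisors.ne_zero D.2)
  let L : IntermediateField ℂ k :=
    IntermediateField.adjoin ℂ (Finset.univ.biUnion fun j => (f j).coeffs : Finset k)
  haveI : Algebra.EssFiniteType ℂ L :=
    IntermediateField.essFiniteType_iff.2 (IntermediateField.fg_adjoin_finset _)
  haveI : CharZero L := charZero_of_injective_algebraMap (algebraMap ℂ L).injective
  have h1 : ∀ j, ∃ g : L[X], mapAlgHom L.val g = f j := fun j =>
    (lifts_iff_coeffs_subset_range (f := algebraMap L k) (f j)).2 fun c hc =>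
      ⟨⟨c, IntermediateField.subset_adjoin _ _
        (Finset.mem_biUnion.2 ⟨j, Finset.mem_univ _, hc⟩)⟩, rfl⟩
  choose g hg using h1
  have h2 : ∀ (q : MvPolynomial (Fin (P.N + 1)) ℂ) d, q.IsHomogeneous d →
      (MvPolynomial.aeval g q = 0 ↔ MvPolynomial.aeval P.y q = 0) := fun q d hq => by
    rw [← map_eq_zero_iff (ι.comp (mapAlgHom L.val))
      (hι.comp (map_injective _ L.val.injective)), MvPolynomial.comp_aeval_apply]
    simp only [AlgHom.comp_apply, hg, hf]
    rw [Rc72.aeval_mul hq, ← MvPolynomial.comp_aeval_apply, mul_eq_zero,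
      or_iff_right (pow_ne_zero _ hD), map_eq_zero]
  obtain ⟨c, G, hc⟩ := Rc72.exists_const_of_not_NC fun hn => by
    obtain ⟨q, d, h3, h4, h5⟩ := Rc72.exists_form P b hm hω h0 (fun q d h h' => (h2 q d h).2 h') hn
    exact h4 ((h2 q d h3).1 h5)
  let S : Subalgebra ℂ (RatFunc k) := (IsScalarTower.toAlgHom ℂ k (RatFunc k)).range
  have h3 : ∀ j, ι D * γ (P.y j) = algebraMap k _ (c j : k) * ι (mapAlgHom L.val G) := fun j => by
    rw [← hf, ← hg, hc, map_mul, map_mul]
    simp [ι]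
  have h4 : ∀ j, γ (P.y j / P.y 0) ∈ S := fun j => by
    have h5 : ι (mapAlgHom L.val G) ≠ 0 := right_ne_zero_of_mul
      (h3 0 ▸ mul_ne_zero hD ((map_ne_zero γ).2 (P.y_ne 0)))
    refine ⟨c j / c 0, ?_⟩
    rw [map_div₀, map_div₀, ← mul_div_mul_left (γ _) _ hD, h3, h3, mul_div_mul_right _ _ h5]
    rfl
  obtain ⟨a, ha, c, hc, -, rfl⟩ := P.frac x
  obtain ⟨a', ha⟩ := Rc72.chart_le P γ S h4 ha
  obtain ⟨c', hc⟩ := Rc72.chart_le P γ S h4 hc
  exact ⟨a' / c', by rw [map_div₀, map_div₀, ← ha, ← hc]; rfl⟩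

end hom

end Crest.Agent.X262.Noc95
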